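import Mathlib

/-!
Lengths of Hom modules, semisimple modules killed by the radical, minimal projective covers.
-/

set_option linter.unusedSectionVars false
set_option linter.style.haveILetI false

namespace Vale.Agent.P195

universe u

section Hom

variable (R : Type u) [CommRing R] [IsArtinianRing R] {A : Type u} [Ring A] [Algebra R A]
  [Module.Finite R A]
variable {X Y Z : Type u} [AddCommGroup X] [Module A X] [AddCommGroup Y] [Module A Y]
  [Module R Y] [IsScalarTower R A Y] [AddCommGroup Z] [Module A Z] [Module R Z] [IsScalarTower R A Z]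

/-- Length over the central subring of a Hom module. -/
noncomputable def hlen (A : Type u) [Ring A] [Algebra R A] (X Y : Type u) [AddCommGroup X] [Module A X] [AddCommGroup Y] [Module A Y]
    [Module R Y] [IsScalarTower R A Y] : ℕ :=
  (Module.length R (X →ₗ[A] Y)).toNat

theorem hom_finite [Module.Finite A X] [Module.Finite A Y] :
    Module.Finite R (X →ₗ[A] Y) := by
  haveI : Module.Finite R Y := Module.Finite.trans A Y
  obtain ⟨n, g, hg⟩ := Module.Finite.exists_fin' A X
  let ev : (X →ₗ[A] Y) →ₗ[R] (Fin n → Y) :=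
    { toFun := fun f a => f (g (Pi.single a 1))
      map_add' := fun f f' => rfl
      map_smul' := fun r f => rfl }
  have hi : Function.Injective ev := by
    intro f f' h
    have h2 : f ∘ₗ g = f' ∘ₗ g := (Pi.basisFun A (Fin n)).ext fun a => by
      simpa [ev] using congrFun h a
    exact LinearMap.ext fun x => by
      obtain ⟨y, rfl⟩ := hg x
      exact LinearMap.congr_fun h2 y
  exact Module.Finite.of_injective ev hi

theorem length_hom_ne_top [Module.Finite A X] [Module.Finite A Y] :
    Module.length R (X →ₗ[A] Y) ≠ ⊤ := by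
  haveI := hom_finite R (A := A) (X := X) (Y := Y)
  exact Module.length_ne_top

theorem hlen_cast [Module.Finite A X] [Module.Finite A Y] :
    (hlen R A X Y : ℕ∞) = Module.length R (X →ₗ[A] Y) :=
  ENat.natCast_toNat (length_hom_ne_top R)

/-- Precomposition. -/
def pre {X' : Type u} [AddCommGroup X'] [Module A X'] (f : X →ₗ[A] X') :
    (X' →ₗ[A] Y) →ₗ[R] (X →ₗ[A] Y) where
  toFun g := g ∘ₗ f
  map_add' _ _ := rfl
  map_smul' _ _ := rfl

/-- Postcomposition. -/
def post (X : Type u) [AddCommGroup X] [Module A X] (f : Y →ₗ[A] Z) :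
    (X →ₗ[A] Y) →ₗ[R] (X →ₗ[A] Z) where
  toFun g := f ∘ₗ g
  map_add' g g' := LinearMap.comp_add g g' f
  map_smul' r g := LinearMap.ext fun x => LinearMap.map_smul_of_tower f r (g x)

theorem hlen_congr (e : Y ≃ₗ[A] Z) : hlen R A X Y = hlen R A X Z := by
  have h : Function.Bijective (post R X e.toLinearMap) :=
    ⟨fun g g' h => LinearMap.ext fun x => e.injective (LinearMap.congr_fun h x),
      fun g => ⟨e.symm.toLinearMap ∘ₗ g, LinearMap.ext fun x => e.apply_symm_apply (g x)⟩⟩
  rw [hlen, hlen, (LinearEquiv.ofBijective _ h).length_eq]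

theorem hlen_pi [Module.Finite A X] {ι : Type} [Fintype ι] (W : ι → Type u) [∀ a, AddCommGroup (W a)]
    [∀ a, Module A (W a)] [∀ a, Module R (W a)] [∀ a, IsScalarTower R A (W a)]
    [∀ a, Module.Finite A (W a)] : hlen R A X (∀ a, W a) = ∑ a, hlen R A X (W a) := by
  let e : (X →ₗ[A] ∀ a, W a) ≃ₗ[R] ∀ a, X →ₗ[A] W a :=
    { toFun := fun f a => LinearMap.proj a ∘ₗ f
      map_add' := fun _ _ => rfl
      map_smul' := fun _ _ => rfl
      invFun := fun f => LinearMap.pi f
      left_inv := fun _ => rfl
      right_inv := fun _ => rfl }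
  have h : ((hlen R A X (∀ a, W a) : ℕ) : ℕ∞) = ((∑ a, hlen R A X (W a) : ℕ) : ℕ∞) := by
    push_cast
    simp only [hlen_cast]
    rw [e.length_eq, Module.length_pi_of_fintype]
  exact_mod_cast h

theorem hlen_subsingleton [Subsingleton Y] : hlen R A X Y = 0 := by
  haveI : Subsingleton (X →ₗ[A] Y) := ⟨fun f g => LinearMap.ext fun x => Subsingleton.elim _ _⟩
  rw [hlen, Module.length_eq_zero]
  rfl

theorem hlen_proj_exact {P W : Type u} [AddCommGroup P] [Module A P] [Module.Projective A P]
    [Module.Finite A P] [AddCommGroup W] [Module A W] [Module R W] [IsScalarTower R A W]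
    [Module.Finite A Y] [Module.Finite A Z] [Module.Finite A W]
    (f : Y →ₗ[A] Z) (g : Z →ₗ[A] W) (hf : Function.Injective f) (hg : Function.Surjective g)
    (he : Function.Exact f g) : hlen R A P Z = hlen R A P Y + hlen R A P W := by
  have h : Module.length R (P →ₗ[A] Z) =
      Module.length R (P →ₗ[A] Y) + Module.length R (P →ₗ[A] W) := by
    refine Module.length_eq_add_of_exact (post R P f) (post R P g) ?_ ?_ ?_
    · exact fun a b h => LinearMap.ext fun x => hf (LinearMap.congr_fun h x)
    · exact fun b => Module.projective_lifting_property g b hg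
    · intro b
      constructor
      · intro hb
        have hk : ∀ x, ∃ y, f y = b x := fun x => (he (b x)).1 (LinearMap.congr_fun hb x)
        choose c hc using hk
        refine ⟨{ toFun := c, map_add' := fun x y => hf ?_, map_smul' := fun a x => hf ?_ },
          LinearMap.ext hc⟩
        · rw [map_add, hc, hc, hc, map_add]
        · rw [RingHom.id_apply, map_smul, hc, hc, map_smul]
      · rintro ⟨a, rfl⟩
        exact LinearMap.ext fun x => (he (f (a x))).2 ⟨a x, rfl⟩
  simp only [← hlen_cast] at h
  exact_mod_cast h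

/-- If all maps land in a submodule, the two Hom modules agree. -/
theorem hlen_of_range (N : Submodule A Y) (h : ∀ f : X →ₗ[A] Y, ∀ x, f x ∈ N) :
    hlen R A X Y = hlen R A X N := by
  have hb : Function.Bijective (post R X N.subtype) :=
    ⟨fun g g' h => LinearMap.ext fun x => Subtype.ext (LinearMap.congr_fun h x :),
      fun g => ⟨g.codRestrict N (h g), LinearMap.ext fun _ => rfl⟩⟩
  rw [hlen, hlen, (LinearEquiv.ofBijective _ hb).length_eq]

theorem hlen_lt_end [Module.Finite A Y] (N : Submodule A Y) (hN : N ≠ ⊤) :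
    hlen R A Y N < hlen R A Y Y := by
  haveI := hom_finite R (A := A) (X := Y) (Y := Y)
  haveI : IsNoetherian A Y := by
    haveI : IsArtinianRing A := IsArtinianRing.of_finite R A
    infer_instance
  haveI : Module.Finite A N := .of_fg (IsNoetherian.noetherian N)
  have hi : Function.Injective (post R Y N.subtype) :=
    fun g g' h => LinearMap.ext fun x => Subtype.ext (LinearMap.congr_fun h x :)
  have hne : LinearMap.range (post R Y N.subtype) ≠ ⊤ := by
    intro h
    obtain ⟨g, hg⟩ := LinearMap.range_eq_top.1 h LinearMap.id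
    refine hN (eq_top_iff.2 fun y _ => ?_)
    have h1 : ((g y : N) : Y) = y := LinearMap.congr_fun hg y
    rw [← h1]
    exact (g y).2
  have h := Submodule.length_lt hne
  rw [← (LinearEquiv.ofInjective _ hi).length_eq, ← hlen_cast, ← hlen_cast] at h
  exact_mod_cast h

end Hom

section Rad

variable {A : Type u} [Ring A] [IsArtinianRing A]

theorem ss_of_killed {X : Type u} [AddCommGroup X] [Module A X]
    (h : Ring.jacobson A • (⊤ : Submodule A X) = ⊥) : IsSemisimpleModule A X := by
  have hM : Module.IsTorsionBySet A X (Ring.jacobson A : Set A) := fun x a =>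
    (Submodule.mem_bot A).1 (h ▸ Submodule.smul_mem_smul a.2 (Submodule.mem_top (x := x)))
  let _ := hM.module
  exact (hM.semilinearMap.isSemisimpleModule_iff_of_bijective Function.bijective_id).2 inferInstance

theorem smul_top_sub {X : Type u} [AddCommGroup X] [Module A X] (I : Ideal A) (N : Submodule A X) :
    (I • (⊤ : Submodule A N)).map N.subtype = I • N := by
  rw [Submodule.map_smul'', Submodule.map_top, Submodule.range_subtype]

theorem quot_killed {X : Type u} [AddCommGroup X] [Module A X] (I : Ideal A) :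
    I • (⊤ : Submodule A (X ⧸ I • (⊤ : Submodule A X))) = ⊥ := by
  have h := Submodule.map_smul'' I (⊤ : Submodule A X) (I • (⊤ : Submodule A X)).mkQ
  rw [Submodule.map_top, Submodule.range_mkQ] at h
  rw [← h]
  exact Submodule.mkQ_map_self _

theorem rad_eq {X : Type u} [AddCommGroup X] [Module A X] :
    Module.jacobson A X = Ring.jacobson A • (⊤ : Submodule A X) := by
  refine le_antisymm (Module.jacobson_le_of_eq_bot ?_) (Ring.jacobson_smul_top_le A X)
  haveI := ss_of_killed (quot_killed (X := X) (Ring.jacobson A))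
  exact IsSemisimpleModule.jacobson_eq_bot A _

/-- Every finite module has a projective cover: kernel in the radical. -/
theorem exists_cover (M : ModuleCat.{u} A) [Module.Finite A M] :
    ∃ (P : ModuleCat.{u} A) (π : P →ₗ[A] M), Module.Finite A P ∧ Module.Projective A P ∧
      Function.Surjective π ∧ LinearMap.ker π ≤ Ring.jacobson A • (⊤ : Submodule A P) := by
  classical
  let Cand : ℕ → Prop := fun n => ∃ (P : ModuleCat.{u} A) (π : P →ₗ[A] M),
    Module.Finite A P ∧ Module.Projective A P ∧ Function.Surjective π ∧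
      (Module.length A P).toNat = n
  have hex : ∃ n, Cand n := by
    obtain ⟨n, g, hg⟩ := Module.Finite.exists_fin' A M
    exact ⟨_, ModuleCat.of A (Fin n → A), g, inferInstanceAs (Module.Finite A (Fin n → A)),
      inferInstanceAs (Module.Projective A (Fin n → A)), hg, rfl⟩
  obtain ⟨P, π, hP, hpr, hs, hl⟩ := Nat.find_spec hex
  refine ⟨P, π, hP, hpr, hs, ?_⟩
  rw [← rad_eq]
  refine le_sInf fun L hL => ?_
  by_contra hK
  have hsup : LinearMap.ker π ⊔ L = ⊤ := hL.2 _ (lt_of_le_of_ne le_sup_right
    fun h => hK (h ▸ le_sup_left))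
  have hsL : Function.Surjective (π ∘ₗ L.subtype) := by
    intro m
    obtain ⟨p, rfl⟩ := hs m
    obtain ⟨a, ha, b, hb, rfl⟩ := Submodule.mem_sup.1 (hsup ▸ Submodule.mem_top (x := p))
    exact ⟨⟨b, hb⟩, by simp [LinearMap.mem_ker.1 ha]⟩
  obtain ⟨h0, hh0⟩ := Module.projective_lifting_property (π ∘ₗ L.subtype) π hsL
  let h : P →ₗ[A] P := L.subtype ∘ₗ h0
  have hπ : ∀ n : ℕ, ∀ x, π ((h ^ n) x) = π x := by
    intro n
    induction n with
    | zero => simp
    | succ n ih =>
      intro x
      rw [pow_succ, Module.End.mul_apply, ih]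
      exact LinearMap.congr_fun hh0 x
  obtain ⟨n, hn⟩ := Filter.eventually_atTop.1 h.eventually_isCompl_ker_pow_range_pow
  have hc := hn (n + 1) (Nat.le_succ n)
  let Q := LinearMap.range (h ^ (n + 1))
  have hQL : Q ≤ L := by
    rintro y ⟨x, rfl⟩
    rw [pow_succ', Module.End.mul_apply]
    exact (h0 _).2
  haveI : Module.Finite A Q := .of_fg (IsNoetherian.noetherian Q)
  haveI : Module.Projective A Q :=
    Module.Projective.of_split Q.subtype (Q.projectionOnto _ hc.symm)
      (LinearMap.ext fun q => Submodule.projectionOnto_apply_left hc.symm q)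
  have hcand : Cand (Module.length A Q).toNat := by
    refine ⟨ModuleCat.of A Q, π ∘ₗ Q.subtype, ‹Module.Finite A Q›, ‹Module.Projective A Q›,
      fun m => ?_, rfl⟩
    obtain ⟨p, rfl⟩ := hs m
    exact ⟨⟨(h ^ (n + 1)) p, ⟨p, rfl⟩⟩, hπ (n + 1) p⟩
  have h1 := Nat.find_min' hex hcand
  rw [← hl] at h1
  have h2 := Submodule.length_lt (R := A) (M := P) (N := Q)
    (fun e => hL.1 (top_le_iff.1 (e ▸ hQL)))
  have h3 : Module.length A P ≠ ⊤ := Module.length_ne_top
  rw [← ENat.natCast_toNat h3, ← ENat.natCast_toNat (Module.length_ne_top (R := A) (M := Q))] at h2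
  exact absurd h1 (not_le.2 (by exact_mod_cast h2))

/-- Finitely many simple modules account for all semisimple finite modules. -/
theorem exists_simples : ∃ (s : ℕ) (S : Fin s → ModuleCat.{u} A), (∀ l, Module.Finite A (S l)) ∧
    ∀ (X : Type u) [AddCommGroup X] [Module A X] [Module.Finite A X],
      Ring.jacobson A • (⊤ : Submodule A X) = ⊥ →
        ∃ (r : ℕ) (c : Fin r → Fin s), Nonempty (X ≃ₗ[A] ((a : Fin r) → S (c a))) := by
  classical
  have hJ : Ring.jacobson A • (⊤ : Submodule A A) = Ring.jacobson A := by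
    refine le_antisymm (Submodule.smul_le.2 fun r hr m _ => Ideal.mul_mem_right m _ hr) fun r hr => ?_
    simpa using Submodule.smul_mem_smul hr (Submodule.mem_top (x := (1 : A)))
  have hQ := ss_of_killed (quot_killed (X := A) (Ring.jacobson A))
  rw [hJ] at hQ
  obtain ⟨s, S, e, hS⟩ :=
    IsSemisimpleModule.exists_linearEquiv_fin_dfinsupp A (A ⧸ Ring.jacobson A)
  let e' := e.trans (DFinsupp.linearEquivFunOnFintype (R := A))
  refine ⟨s, fun l => ModuleCat.of A (S l), fun l => ?_, fun X _ _ _ hX => ?_⟩
  · exact Module.Finite.of_fg (IsNoetherian.noetherian (S l))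
  haveI := ss_of_killed hX
  obtain ⟨r, T, d, hT⟩ := IsSemisimpleModule.exists_linearEquiv_fin_dfinsupp A X
  have key : ∀ a, ∃ l, Nonempty (T a ≃ₗ[A] S l) := by
    intro a
    haveI := hT a
    haveI : Nontrivial (T a) := IsSimpleModule.nontrivial A _
    obtain ⟨x, hx⟩ := exists_ne (0 : T a)
    have hk : Ring.jacobson A ≤ LinearMap.ker (LinearMap.toSpanSingleton A (T a) x) := by
      intro j hj
      rw [LinearMap.mem_ker, LinearMap.toSpanSingleton_apply]
      refine Subtype.ext ?_
      exact (Submodule.mem_bot A).1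
        (hX ▸ Submodule.smul_mem_smul hj (Submodule.mem_top (x := (x : X))))
    let q := Submodule.liftQ (Ring.jacobson A) _ hk
    have hq : q (Submodule.Quotient.mk 1) ≠ 0 := by
      show q (Submodule.Quotient.mk (1 : A)) ≠ 0
      rw [show q (Submodule.Quotient.mk (1 : A)) = LinearMap.toSpanSingleton A (T a) x 1 from
        Submodule.liftQ_apply _ _ _, LinearMap.toSpanSingleton_apply, one_smul]
      exact hx
    let g : ((l : Fin s) → S l) →ₗ[A] T a := q ∘ₗ e'.symm.toLinearMap
    have hg : ∃ l, g ∘ₗ LinearMap.single A _ l ≠ 0 := by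
      by_contra hcon
      push Not at hcon
      have hz : g = 0 := LinearMap.pi_ext fun l y => LinearMap.congr_fun (hcon l) y
      exact hq (by simpa [g] using LinearMap.congr_fun hz (e' (Submodule.Quotient.mk 1)))
    obtain ⟨l, hl⟩ := hg
    haveI := hS l
    exact ⟨l, ⟨(LinearEquiv.ofBijective _ ((LinearMap.bijective_or_eq_zero _).resolve_right hl)).symm⟩⟩
  choose c hc using key
  exact ⟨r, c, ⟨d.trans ((DFinsupp.linearEquivFunOnFintype (R := A)).trans
    (LinearEquiv.piCongrRight fun a => (hc a).some))⟩⟩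

end Rad

end Vale.Agent.P195
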