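import Mathlib

/-!
From a simple module without extensions into the algebra to a non-projective module over a corner
algebra that has no self-extensions and no extensions into the algebra.
-/

set_option linter.style.haveILetI false
set_option linter.unusedSectionVars false

namespace Vale.Agent.P195.Cor

open CategoryTheory CategoryTheory.Abelian

universe u

variable {G : Type u} [Ring G] {e : G} (he : IsIdempotentElem e)

theorem coe_mul_left (b : he.Corner) : e * b.1 = b.1 :=
  ((Subsemigroup.mem_corner_iff he).1 b.2).1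

theorem coe_mul_right (b : he.Corner) : b.1 * e = b.1 :=
  ((Subsemigroup.mem_corner_iff he).1 b.2).2

theorem mem_corner (g : G) : e * g * e ∈ Subsemigroup.corner e := ⟨g, rfl⟩

/-- The part of a module fixed by the idempotent. -/
def fixed (e : G) (X : Type u) [AddCommGroup X] [Module G X] : AddSubgroup X where
  carrier := {x | e • x = x}
  zero_mem' := smul_zero e
  add_mem' {a b} ha hb := by
    show e • (a + b) = a + b
    rw [smul_add, ha, hb]
  neg_mem' {a} ha := by
    show e • (-a) = -a
    rw [smul_neg, ha]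

variable {X Y : Type u} [AddCommGroup X] [Module G X] [AddCommGroup Y] [Module G Y]

instance : SMul he.Corner (fixed e X) :=
  ⟨fun b x => ⟨b.1 • x.1, by
    show e • (b.1 • x.1) = b.1 • x.1
    rw [← mul_smul, coe_mul_left he b]⟩⟩

theorem coe_smul (b : he.Corner) (x : fixed e X) : (b • x : fixed e X).1 = b.1 • x.1 := rfl

instance : Module he.Corner (fixed e X) where
  one_smul x := Subtype.ext x.2
  mul_smul a b x := Subtype.ext (mul_smul a.1 b.1 x.1)
  smul_zero a := Subtype.ext (smul_zero a.1)
  smul_add a x y := Subtype.ext (smul_add a.1 x.1 y.1)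
  add_smul a b x := Subtype.ext (add_smul a.1 b.1 x.1)
  zero_smul x := Subtype.ext (zero_smul G x.1)

/-- The corner module of a module. -/
noncomputable abbrev cut (X : ModuleCat.{u} G) : ModuleCat.{u} he.Corner :=
  ModuleCat.of he.Corner (fixed e X)

/-- The corner of a linear map. -/
def cutMap (f : X →ₗ[G] Y) : fixed e X →ₗ[he.Corner] fixed e Y where
  toFun x := ⟨f x.1, by
    show e • f x.1 = f x.1
    rw [← map_smul, x.2]⟩
  map_add' x y := Subtype.ext (map_add f x.1 y.1)
  map_smul' b x := Subtype.ext (map_smul f b.1 x.1)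

/-- Finite sums of the left ideal of the idempotent. -/
def left (e : G) (n : ℕ) : Submodule G (Fin n → G) where
  carrier := {w | ∀ j, w j * e = w j}
  zero_mem' j := zero_mul e
  add_mem' {a b} ha hb j := by
    show (a j + b j) * e = a j + b j
    rw [add_mul, ha j, hb j]
  smul_mem' g a ha j := by
    show (g * a j) * e = g * a j
    rw [mul_assoc, ha j]

include he in
theorem left_projective (n : ℕ) : Module.Projective G (left e n) := by
  refine Module.Projective.of_split (left e n).subtype
    (LinearMap.codRestrict _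
      { toFun := fun w j => w j * e
        map_add' := fun a b => funext fun j => add_mul (a j) (b j) e
        map_smul' := fun g a => funext fun j => mul_assoc g (a j) e }
      fun w j => ?_) ?_
  · show w j * e * e = w j * e
    rw [mul_assoc, he.eq]
  · exact LinearMap.ext fun w => Subtype.ext (funext fun j => w.2 j)

/-- The corner of the left ideal sums is free. -/
def freeEquiv (n : ℕ) : fixed e (left e n) ≃ₗ[he.Corner] (Fin n → he.Corner) where
  toFun w j := ⟨w.1.1 j, (Subsemigroup.mem_corner_iff he).2
    ⟨congrFun (congrArg Subtype.val w.2) j, w.1.2 j⟩⟩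
  map_add' _ _ := rfl
  map_smul' _ _ := rfl
  invFun c := ⟨⟨fun j => (c j).1, fun j => coe_mul_right he (c j)⟩,
    Subtype.ext (funext fun j => coe_mul_left he (c j))⟩
  left_inv _ := rfl
  right_inv _ := rfl

include he in
theorem exists_gen [IsNoetherianRing G] (X : ModuleCat.{u} G) [Module.Finite G X] :
    ∃ (n : ℕ) (v : Fin n → fixed e X), ∀ x : fixed e X,
      ∃ c : Fin n → he.Corner, ∑ j, (c j).1 • (v j).1 = x.1 := by
  classical
  obtain ⟨s, hs, hsp⟩ := (Submodule.fg_span_iff_fg_span_finset_subset _).1
    (IsNoetherian.noetherian (Submodule.span G (fixed e X : Set X)))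
  refine ⟨s.card, fun j => ⟨(s.equivFin.symm j).1, hs (s.equivFin.symm j).2⟩, fun x => ?_⟩
  have hx : x.1 ∈ Submodule.span G (s : Set X) := hsp ▸ Submodule.subset_span x.2
  obtain ⟨f, hf⟩ := Submodule.mem_span_finset'.1 hx
  refine ⟨fun j => ⟨_, mem_corner (e := e) (f (s.equivFin.symm j))⟩, ?_⟩
  calc ∑ j, (e * f (s.equivFin.symm j) * e) • (s.equivFin.symm j).1
      = ∑ y : s, (e * f y * e) • y.1 :=
        Equiv.sum_comp s.equivFin.symm fun y : s => (e * f y * e) • y.1
    _ = ∑ y : s, e • f y • y.1 := by
        refine Finset.sum_congr rfl fun y _ => ?_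
        rw [mul_smul, mul_smul, show e • y.1 = y.1 from hs y.2]
    _ = x.1 := by rw [← Finset.smul_sum, hf, x.2]

/-- The short complex of two linear maps. -/
noncomputable abbrev seq {R : Type u} [Ring R] {A B C : ModuleCat.{u} R} (i : A →ₗ[R] B)
    (p : B →ₗ[R] C) (h : Function.Exact i p) : ShortComplex (ModuleCat.{u} R) :=
  ShortComplex.mk (X₁ := A) (X₂ := B) (X₃ := C) (ModuleCat.ofHom i) (ModuleCat.ofHom p)
    (ModuleCat.hom_ext h.linearMap_comp_eq_zero)

theorem seq_exact {R : Type u} [Ring R] {A B C : ModuleCat.{u} R} {i : A →ₗ[R] B}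
    {p : B →ₗ[R] C} (hi : Function.Injective i) (h : Function.Exact i p)
    (hp : Function.Surjective p) : (seq i p h).ShortExact :=
  ModuleCat.shortComplex_shortExact _ h hi hp

theorem ext_sub {R : Type u} [Ring R] {S : ShortComplex (ModuleCat.{u} R)} (hS : S.ShortExact)
    (Y : ModuleCat.{u} R) {n : ℕ} (h2 : Subsingleton (Ext S.X₂ Y n))
    (h3 : Subsingleton (Ext S.X₃ Y (n + 1))) : Subsingleton (Ext S.X₁ Y n) := by
  refine subsingleton_of_forall_eq 0 fun x => ?_
  obtain ⟨y, hy⟩ := Ext.contravariant_sequence_exact₁ hS Y x (Nat.add_comm 1 n) (h3.elim _ _)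
  rw [← hy, h2.elim y 0, Ext.comp_zero]

theorem extend_map {R : Type u} [Ring R] {S : ShortComplex (ModuleCat.{u} R)} (hS : S.ShortExact)
    {Y : ModuleCat.{u} R} (h : Subsingleton (Ext S.X₃ Y 1)) (f : S.X₁ →ₗ[R] Y) :
    ∃ g : S.X₂ →ₗ[R] Y, g ∘ₗ S.f.hom = f := by
  obtain ⟨x, hx⟩ := Ext.contravariant_sequence_exact₁ hS Y
    (Ext.mk₀ (ModuleCat.ofHom f : S.X₁ ⟶ Y)) (show 1 + 0 = 1 from rfl) (h.elim _ _)
  obtain ⟨g, rfl⟩ := Ext.homEquiv₀.symm.surjective x
  refine ⟨(g : S.X₂ ⟶ Y).hom, ?_⟩
  have h2 : S.f ≫ g = ModuleCat.ofHom f := by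
    apply (Ext.mk₀_bijective _ _).1
    rw [← Ext.mk₀_comp_mk₀]
    exact hx
  exact congrArg ModuleCat.Hom.hom h2

/-- The hypothesis on the modules killed by the idempotent. -/
structure Orth (e : G) : Prop where
  hom : ∀ y : G, (∀ g, e * g * y = 0) → y = 0
  ext : ∀ (X : ModuleCat.{u} G), Module.Finite G X → (∀ x : X, e • x = 0) →
    ∀ n : ℕ, Subsingleton (Ext X (ModuleCat.of G G) (n + 1))

variable [IsNoetherianRing G]

/-- The map from the cover of the generated submodule. -/
def cover {n : ℕ} (v : Fin n → fixed e X) : left e n →ₗ[G] X where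
  toFun w := ∑ j, w.1 j • (v j).1
  map_add' a b := by
    simp only [Submodule.coe_add, Pi.add_apply, add_smul, Finset.sum_add_distrib]
  map_smul' g a := by
    simp only [Submodule.coe_smul, Pi.smul_apply, smul_eq_mul, mul_smul, RingHom.id_apply,
      Finset.smul_sum]

include he in
theorem sub_ext (h : Orth e) {X : ModuleCat.{u} G} [Module.Finite G X] (S : Submodule G X)
    (hS : ∀ x : fixed e X, x.1 ∈ S) (n : ℕ)
    (hX : Subsingleton (Ext X (ModuleCat.of G G) n)) :
    Subsingleton (Ext (ModuleCat.of G S) (ModuleCat.of G G) n) := by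
  refine ext_sub (seq_exact (R := G) (A := ModuleCat.of G S) (B := X) (C := ModuleCat.of G (X ⧸ S))
    (i := S.subtype) (p := S.mkQ) S.subtype_injective (LinearMap.exact_subtype_mkQ S)
    S.mkQ_surjective) _ hX (h.ext (ModuleCat.of G (X ⧸ S)) inferInstance (fun x => ?_) n)
  obtain ⟨x, rfl⟩ := S.mkQ_surjective x
  rw [← map_smul, Submodule.mkQ_apply, Submodule.Quotient.mk_eq_zero]
  exact hS ⟨e • x, by show e • e • x = e • x; rw [← mul_smul, he.eq]⟩

theorem mem_cover_range {n : ℕ} {v : Fin n → fixed e X}
    (hv : ∀ x : fixed e X, ∃ c : Fin n → he.Corner, ∑ j, (c j).1 • (v j).1 = x.1)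
    (x : fixed e X) : ∃ w : fixed e (left e n), cover v w.1 = x.1 := by
  obtain ⟨c, hc⟩ := hv x
  exact ⟨(freeEquiv he n).symm c, hc⟩

/-- Corner maps into the regular corner module come from module maps. -/
theorem lift_hom (h : Orth e) (X : ModuleCat.{u} G) [Module.Finite G X]
    (φ : fixed e X →ₗ[he.Corner] fixed e G) :
    ∃ ψ : X →ₗ[G] G, ∀ x : fixed e X, ψ x.1 = (φ x).1 := by
  obtain ⟨n, v, hv⟩ := exists_gen he X
  let Ψ : left e n →ₗ[G] G := cover fun j => φ (v j)
  have hc : ∀ c : Fin n → he.Corner, ∀ y : fixed e X, (∑ j, (c j).1 • (v j).1 = y.1) →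
      ∑ j, (c j).1 * (φ (v j)).1 = (φ y).1 := by
    intro c y hy
    have h1 : y = ∑ j, c j • v j := Subtype.ext (by
      rw [AddSubgroup.val_finsetSum]; exact hy.symm)
    rw [h1, map_sum, AddSubgroup.val_finsetSum]
    exact Finset.sum_congr rfl fun j _ => by rw [map_smul]; rfl
  have hker : LinearMap.ker (cover v) ≤ LinearMap.ker Ψ := by
    intro w hw
    refine h.hom _ fun g => ?_
    have h0 : cover v ((e * g) • w) = 0 := by rw [map_smul, LinearMap.mem_ker.1 hw, smul_zero]
    have h2 := hc (fun j => ⟨_, mem_corner (e := e) (g * w.1 j)⟩) 0 ?_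
    · rw [map_zero] at h2
      calc e * g * ∑ j, w.1 j • (φ (v j)).1
          = ∑ j, e * (g * w.1 j) * e * (φ (v j)).1 := by
            rw [Finset.mul_sum]
            refine Finset.sum_congr rfl fun j _ => ?_
            rw [smul_eq_mul, mul_assoc e (g * w.1 j) e, mul_assoc g (w.1 j) e, w.2 j]
            simp only [mul_assoc]
        _ = 0 := h2
    · refine Eq.trans ?_ h0
      refine Finset.sum_congr rfl fun j _ => ?_
      show (e * (g * w.1 j) * e) • (v j).1 = (e * g * w.1 j) • (v j).1
      rw [mul_assoc e (g * w.1 j) e, mul_assoc g (w.1 j) e, w.2 j, mul_assoc]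
  let ψ₀ : LinearMap.range (cover v) →ₗ[G] G :=
    (LinearMap.ker (cover v)).liftQ Ψ hker ∘ₗ (cover v).quotKerEquivRange.symm.toLinearMap
  have hin : ∀ x : fixed e X, x.1 ∈ LinearMap.range (cover v) := fun x => by
    obtain ⟨w, hw⟩ := mem_cover_range he hv x
    exact ⟨w.1, hw⟩
  obtain ⟨ψ, hψ⟩ := extend_map (seq_exact (R := G)
    (A := ModuleCat.of G (LinearMap.range (cover v))) (B := X)
    (C := ModuleCat.of G (X ⧸ LinearMap.range (cover v)))
    (i := (LinearMap.range (cover v)).subtype) (p := (LinearMap.range (cover v)).mkQ)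
    (Submodule.subtype_injective _) (LinearMap.exact_subtype_mkQ _) (Submodule.mkQ_surjective _))
    (Y := ModuleCat.of G G) (h.ext (ModuleCat.of G (X ⧸ LinearMap.range (cover v))) inferInstance
      (fun x => by
        obtain ⟨x, rfl⟩ := Submodule.mkQ_surjective _ x
        rw [← map_smul, Submodule.mkQ_apply, Submodule.Quotient.mk_eq_zero]
        exact hin ⟨e • x, by show e • e • x = e • x; rw [← mul_smul, he.eq]⟩) 0) ψ₀
  refine ⟨ψ, fun x => ?_⟩
  obtain ⟨c, hx⟩ := hv x
  have h3 := LinearMap.congr_fun hψ ⟨x.1, hin x⟩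
  rw [← hc c x hx]
  refine h3.trans ?_
  have h4 : (cover v).quotKerEquivRange.symm ⟨x.1, hin x⟩ =
      Submodule.Quotient.mk ((freeEquiv he n).symm c).1 := by
    rw [LinearEquiv.symm_apply_eq]
    exact Subtype.ext hx.symm
  show (LinearMap.ker (cover v)).liftQ Ψ hker _ = _
  rw [LinearEquiv.coe_coe, h4, Submodule.liftQ_apply]
  rfl

/-- Vanishing of extensions into the algebra passes to the corner. -/
theorem cut_ext (h : Orth e) : ∀ (i : ℕ) (X : ModuleCat.{u} G), Module.Finite G X →
    Subsingleton (Ext X (ModuleCat.of G G) (i + 1)) →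
    Subsingleton (Ext (cut he X) (cut he (ModuleCat.of G G)) (i + 1)) := by
  intro i
  induction i with
  | zero | succ i ih =>
    intro X hfin hX
    obtain ⟨n, v, hv⟩ := exists_gen he X
    haveI := left_projective he n
    let P : ModuleCat.{u} G := ModuleCat.of G (left e n)
    let K : ModuleCat.{u} G := ModuleCat.of G (LinearMap.ker (cover v))
    let ι : LinearMap.ker (cover v) →ₗ[G] left e n := (LinearMap.ker (cover v)).subtype
    haveI : CategoryTheory.Projective P := (IsProjective.iff_projective P).mp (left_projective he n)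
    have hE : Function.Exact (cutMap he (X := LinearMap.ker (cover v)) ι) (cutMap he (cover v)) := by
      intro y
      constructor
      · intro hy
        exact ⟨⟨⟨y.1, congrArg Subtype.val hy⟩, Subtype.ext y.2⟩, rfl⟩
      · rintro ⟨z, rfl⟩
        exact Subtype.ext z.1.2
    have hB := seq_exact (R := he.Corner) (A := cut he K) (B := cut he P) (C := cut he X)
      (i := cutMap he (X := LinearMap.ker (cover v)) ι) (p := cutMap he (cover v))
      (fun a b hab => Subtype.ext (Subtype.ext (congrArg (fun z => z.1) hab))) hE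
      (fun x => (mem_cover_range he hv x).imp fun w hw => Subtype.ext hw)
    haveI : Module.Projective he.Corner (fixed e (left e n)) :=
      Module.Projective.of_equiv (freeEquiv he n).symm
    haveI : CategoryTheory.Projective (cut he P) :=
      (IsProjective.iff_projective (cut he P)).mp ‹_›
    have hR := sub_ext he h (LinearMap.range (cover v))
      (fun x => (mem_cover_range he hv x).elim fun w hw => ⟨w.1, hw⟩) _ hX
    have hG := seq_exact (R := G) (A := K) (B := P)
      (C := ModuleCat.of G (LinearMap.range (cover v))) (i := ι) (p := (cover v).rangeRestrict)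
      (Submodule.subtype_injective _) (fun y => by
        constructor
        · intro hy
          exact ⟨⟨y, congrArg Subtype.val hy⟩, rfl⟩
        · rintro ⟨z, rfl⟩
          exact Subtype.ext z.2)
      (LinearMap.surjective_rangeRestrict _)
    refine subsingleton_of_forall_eq 0 fun x => ?_
    obtain ⟨y, rfl⟩ := Ext.contravariant_sequence_exact₃ hB (cut he (ModuleCat.of G G)) x
      (Ext.eq_zero_of_projective _) (Nat.add_comm 1 _)
    first
    | (have h1 : Subsingleton (Ext K (ModuleCat.of G G) (i + 1)) :=
          ext_sub hG _ (Ext.subsingleton_of_projective P (ModuleCat.of G G) i) hR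
       rw [(ih K inferInstance h1).elim y 0, Ext.comp_zero])
    | (obtain ⟨f, rfl⟩ := Ext.homEquiv₀.symm.surjective y
       obtain ⟨ψ, hψ⟩ := lift_hom he h K f.hom
       obtain ⟨g, hg⟩ := extend_map hG hR ψ
       have hf : f = ModuleCat.ofHom (cutMap he (X := LinearMap.ker (cover v)) ι) ≫ ModuleCat.ofHom (cutMap he g) :=
         ModuleCat.hom_ext (LinearMap.ext fun z => Subtype.ext
           ((hψ z).symm.trans (LinearMap.congr_fun hg z.1).symm))
       show hB.extClass.comp (Ext.mk₀ f) _ = 0
       rw [hf, ← Ext.mk₀_comp_mk₀]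
       exact hB.extClass_comp_assoc (Ext.mk₀ (ModuleCat.ofHom (cutMap he g))))

/-- The inclusion of the corner algebra into its corner module. -/
def incl : he.Corner →ₗ[he.Corner] fixed e G where
  toFun b := ⟨b.1, coe_mul_left he b⟩
  map_add' _ _ := rfl
  map_smul' _ _ := rfl

/-- The retraction onto the corner algebra. -/
def retr : fixed e G →ₗ[he.Corner] he.Corner where
  toFun y := ⟨y.1 * e, y.1, by
    show e * y.1 * e = y.1 * e
    rw [show e * y.1 = y.1 from y.2]⟩
  map_add' y z := Subtype.ext (add_mul y.1 z.1 e)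
  map_smul' b y := Subtype.ext (mul_assoc b.1 y.1 e)

theorem retr_incl (b : he.Corner) : retr he (incl he b) = b := Subtype.ext (coe_mul_right he b)

theorem finite_cut : Module.Finite he.Corner (fixed e G) := by
  obtain ⟨n, v, hv⟩ := exists_gen he (ModuleCat.of G G)
  refine Module.Finite.of_surjective ((LinearMap.lsum he.Corner (fun _ => he.Corner) ℕ)
    fun j => LinearMap.toSpanSingleton he.Corner (fixed e G) (v j)) fun x => ?_
  obtain ⟨c, hc⟩ := hv x
  refine ⟨c, Subtype.ext ?_⟩
  simp only [LinearMap.lsum_apply, LinearMap.coe_sum, Finset.sum_apply, LinearMap.coe_comp,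
    Function.comp_apply, LinearMap.proj_apply, LinearMap.toSpanSingleton_apply]
  rw [AddSubgroup.val_finsetSum]
  exact hc

theorem ext_self (h : Orth e) (i : ℕ) :
    Subsingleton (Ext (cut he (ModuleCat.of G G)) (cut he (ModuleCat.of G G)) (i + 1)) := by
  haveI : CategoryTheory.Projective (ModuleCat.of G G) :=
    (IsProjective.iff_projective (ModuleCat.of G G)).mp inferInstance
  exact cut_ext he h i _ inferInstance (Ext.subsingleton_of_projective _ _ i)

theorem ext_regular (h : Orth e) (i : ℕ) :
    Subsingleton (Ext (cut he (ModuleCat.of G G)) (ModuleCat.of he.Corner he.Corner) (i + 1)) := by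
  refine subsingleton_of_forall_eq 0 fun x => ?_
  let s : ModuleCat.of he.Corner he.Corner ⟶ cut he (ModuleCat.of G G) :=
    ModuleCat.ofHom (incl he)
  let r : cut he (ModuleCat.of G G) ⟶ ModuleCat.of he.Corner he.Corner :=
    ModuleCat.ofHom (retr he)
  have hid : s ≫ r = 𝟙 _ := ModuleCat.hom_ext (LinearMap.ext (retr_incl he))
  rw [← x.comp_mk₀_id, ← hid, ← Ext.mk₀_comp_mk₀, ← Ext.comp_assoc_of_third_deg_zero,
    (ext_self he h i).elim (x.comp (Ext.mk₀ s) (add_zero _)) 0, Ext.zero_comp]

theorem not_projective (h : Orth e) (X : ModuleCat.{u} G) (hX : ∀ x : X, e • x = 0)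
    (hne : Nontrivial X) : ¬ Module.Projective he.Corner (fixed e G) := by
  intro hP
  haveI := finite_cut he
  obtain ⟨n, p, hp⟩ := Module.Finite.exists_fin' he.Corner (fixed e G)
  obtain ⟨σ, hσ⟩ := Module.projective_lifting_property p LinearMap.id hp
  choose ψ hψ using fun j => lift_hom he h (ModuleCat.of G G)
    (incl he ∘ₗ (LinearMap.proj j ∘ₗ σ))
  let b : Fin n → fixed e G := fun j => p (Pi.single j 1)
  have hy : ∀ y : fixed e G, y.1 * ∑ j, ψ j 1 * e * (b j).1 = y.1 := by
    intro y
    have h1 : y = ∑ j, σ y j • b j := by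
      conv_lhs => rw [← LinearMap.id_apply (R := he.Corner) y, ← hσ, LinearMap.comp_apply,
        ← Finset.univ_sum_single (σ y), map_sum]
      refine Finset.sum_congr rfl fun j _ => ?_
      rw [← map_smul]
      congr 1
      ext i
      simp [Pi.single_apply]
    have h2 : y.1 = ∑ j, (σ y j).1 * (b j).1 := by
      conv_lhs => rw [h1, AddSubgroup.val_finsetSum]
      rfl
    rw [Finset.mul_sum]
    conv_rhs => rw [h2]
    refine Finset.sum_congr rfl fun j _ => ?_
    have h3 : y.1 * ψ j 1 = (σ y j).1 := by
      rw [← smul_eq_mul, ← map_smul, smul_eq_mul, mul_one]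
      exact hψ j y
    rw [← mul_assoc, ← mul_assoc, h3, coe_mul_right]
  have hone : (1 : G) = ∑ j, ψ j 1 * e * (b j).1 := by
    refine sub_eq_zero.1 (h.hom _ fun g => ?_)
    have := hy ⟨e * g, show e * (e * g) = e * g by rw [← mul_assoc, he.eq]⟩
    rw [mul_sub, mul_one, this, sub_self]
  obtain ⟨x, hx⟩ := exists_ne (0 : X)
  apply hx
  rw [← one_smul G x, hone, Finset.sum_smul]
  exact Finset.sum_eq_zero fun j _ => by rw [mul_smul, mul_smul, hX, smul_zero]

section Algebra

variable (k : Type u) [Field k] [Algebra k G]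

/-- The structure map of the corner algebra. -/
def cornerMap : k →+* he.Corner where
  toFun c := ⟨c • e, (Subsemigroup.mem_corner_iff he).2
    ⟨by rw [mul_smul_comm, he.eq], by rw [smul_mul_assoc, he.eq]⟩⟩
  map_zero' := Subtype.ext (zero_smul k e)
  map_one' := Subtype.ext (one_smul k e)
  map_add' a b := Subtype.ext (add_smul a b e)
  map_mul' a b := Subtype.ext (show (a * b) • e = (a • e) * (b • e) by
    rw [smul_mul_smul_comm, he.eq])

/-- The corner algebra. -/
@[instance_reducible]
def cornerAlgebra : Algebra k he.Corner :=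
  RingHom.toAlgebra' (cornerMap he k) fun c x => Subtype.ext (show (c • e) * x.1 = x.1 * (c • e) by
    rw [smul_mul_assoc, mul_smul_comm, coe_mul_left, coe_mul_right])

theorem finite_corner [Module.Finite k G] :
    letI := cornerAlgebra he k
    Module.Finite k he.Corner := by
  letI := cornerAlgebra he k
  let f : G →ₗ[k] he.Corner :=
    { toFun := fun g => ⟨e * g * e, g, rfl⟩
      map_add' := fun a b => Subtype.ext (show e * (a + b) * e = e * a * e + e * b * e by
        rw [mul_add, add_mul])
      map_smul' := fun c g => Subtype.ext (show e * (c • g) * e = (c • e) * (e * g * e) by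
        rw [mul_smul_comm, smul_mul_assoc, smul_mul_assoc, ← mul_assoc, ← mul_assoc, he.eq]) }
  exact Module.Finite.of_surjective f fun b => ⟨b.1, Subtype.ext
    (show e * b.1 * e = b.1 by rw [coe_mul_left, coe_mul_right])⟩

end Algebra

section Point

variable {k : Type u} [Field k] [Algebra k G]

/-- The one-dimensional module of a character. -/
def Point (_χ : G →ₐ[k] k) : Type u := k

instance (χ : G →ₐ[k] k) : AddCommGroup (Point χ) := inferInstanceAs (AddCommGroup k)

instance (χ : G →ₐ[k] k) : Module G (Point χ) := Module.compHom k χ.toRingHom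

theorem orth_of_point (χ : G →ₐ[k] k)
    (hact : ∀ g : G, (1 - e) * g * (1 - e) - χ g • (1 - e) ∈
      Submodule.span G (Set.range fun p : G => e * p))
    (hhom : ∀ y : G, (∀ g, g * y = χ g • y) → y = 0)
    (hext : ∀ n : ℕ, Subsingleton
      (Ext (ModuleCat.of G (Point χ)) (ModuleCat.of G G) (n + 1))) :
    Orth e := by
  have key : ∀ (Z : Type u) [AddCommGroup Z] [Module G Z], (∀ z : Z, e • z = 0) →
      ∀ (g : G) (z : Z), g • z = algebraMap k G (χ g) • z := by
    intro Z _ _ hZ g z
    have h1 : ∀ z : Z, (1 - e) • z = z := fun z => by rw [sub_smul, one_smul, hZ, sub_zero]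
    have h2 : ∀ t ∈ Submodule.span G (Set.range fun p : G => e * p), ∀ z : Z, t • z = 0 := by
      intro t ht
      induction ht using Submodule.span_induction with
      | mem x hx => obtain ⟨p, rfl⟩ := hx; intro z; rw [mul_smul, hZ]
      | zero => intro z; exact zero_smul G z
      | add x y _ _ hx hy => intro z; rw [add_smul, hx, hy, add_zero]
      | smul a x _ hx => intro z; rw [smul_eq_mul, mul_smul, hx, smul_zero]
    have h3 := h2 _ (hact g) z
    rw [sub_smul, sub_eq_zero, Algebra.smul_def, mul_smul, mul_smul, mul_smul, h1, h1] at h3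
    exact h3
  refine ⟨fun y hy => hhom y fun g => ?_, fun X hX he0 n => ?_⟩
  · let Z : Submodule G G := Submodule.span G {y}
    have hZ : ∀ z : Z, e • z = 0 := by
      rintro ⟨z, hz⟩
      obtain ⟨a, rfl⟩ := Submodule.mem_span_singleton.1 hz
      exact Subtype.ext (show e * (a * y) = 0 by rw [← mul_assoc, hy])
    have := congrArg Subtype.val (key Z hZ g ⟨y, Submodule.mem_span_singleton_self y⟩)
    rw [Algebra.smul_def]
    exact this
  · letI : Module k X := Module.compHom X (algebraMap k G)
    haveI : Module.Finite k X := by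
      obtain ⟨s, hs⟩ := hX.fg_top
      refine ⟨⟨s, eq_top_iff.2 ?_⟩⟩
      rintro x -
      have hx : x ∈ Submodule.span G (s : Set X) := hs ▸ Submodule.mem_top
      induction hx using Submodule.span_induction with
      | mem y hy => exact Submodule.subset_span hy
      | zero => exact zero_mem _
      | add a b _ _ ha hb => exact add_mem ha hb
      | smul g a _ ha =>
        rw [key X he0 g a]
        exact Submodule.smul_mem _ (χ g) ha
    let bX := Module.finBasis k X
    let co : Fin (Module.finrank k X) → (X ⟶ ModuleCat.of G (Point χ)) := fun a =>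
      ModuleCat.ofHom
        { toFun := fun x => (bX.repr x a : k)
          map_add' := fun x y => congrArg (fun f => f a) (map_add bX.repr x y)
          map_smul' := fun g x => by
            show bX.repr (g • x) a = χ g * bX.repr x a
            rw [key X he0 g x]
            exact congrArg (fun f => f a) (map_smul bX.repr (χ g) x) }
    let el : Fin (Module.finrank k X) → (ModuleCat.of G (Point χ) ⟶ X) := fun a =>
      ModuleCat.ofHom
        { toFun := fun c => algebraMap k G c • bX a
          map_add' := fun c d => by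
            exact (congrArg (fun t => t • bX a) (map_add (algebraMap k G) (c : k) d)).trans
              (add_smul _ _ _)
          map_smul' := fun g c => by
            show algebraMap k G (HMul.hMul (α := k) (β := k) (γ := k) (χ g) c) • bX a = g • algebraMap k G c • bX a
            rw [key X he0 g (algebraMap k G c • bX a)]
            exact (congrArg (fun t => t • bX a) (map_mul (algebraMap k G) (χ g) c)).trans
              (mul_smul _ _ _) }
    have hid : 𝟙 X = ∑ a, co a ≫ el a := by
      refine ModuleCat.hom_ext (LinearMap.ext fun x => ?_)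
      rw [ModuleCat.hom_id, LinearMap.id_apply, ModuleCat.hom_sum, LinearMap.sum_apply]
      exact (bX.sum_repr x).symm
    refine subsingleton_of_forall_eq 0 fun x => ?_
    let Φ : (X ⟶ X) →+ Ext X (ModuleCat.of G G) (n + 1) :=
      { toFun := fun f => (Ext.mk₀ f).comp x (zero_add _)
        map_zero' := by simp
        map_add' := fun f f' => by simp [Ext.mk₀_add, Ext.add_comp] }
    have h1 : Φ (𝟙 X) = x := x.mk₀_id_comp
    rw [← h1, hid, map_sum]
    refine Finset.sum_eq_zero fun a _ => ?_
    show (Ext.mk₀ (co a ≫ el a)).comp x (zero_add _) = 0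
    rw [← Ext.mk₀_comp_mk₀, Ext.comp_assoc_of_second_deg_zero,
      (hext n).elim ((Ext.mk₀ (el a)).comp x (zero_add _)) 0, Ext.comp_zero]

/-- A character with no extensions into the algebra refutes the Auslander-Reiten conjecture. -/
theorem not_arc [Module.Finite k G] (he : IsIdempotentElem e) (χ : G →ₐ[k] k) (hχ : χ e = 0)
    (hact : ∀ g : G, (1 - e) * g * (1 - e) - χ g • (1 - e) ∈
      Submodule.span G (Set.range fun p : G => e * p))
    (hhom : ∀ y : G, (∀ g, g * y = χ g • y) → y = 0)
    (hext : ∀ n : ℕ, Subsingleton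
      (Ext (ModuleCat.of G (Point χ)) (ModuleCat.of G G) (n + 1))) :
    ∃ (A : Type u) (_ : Ring A) (_ : Algebra k A) (_ : Module.Finite k A) (M : ModuleCat.{u} A),
      Module.Finite A M ∧
      (∀ i : ℕ, 1 ≤ i → Subsingleton (Ext M M i) ∧ Subsingleton (Ext M (ModuleCat.of A A) i)) ∧
      ¬ Module.Projective A M := by
  have h := orth_of_point χ hact hhom hext
  refine ⟨he.Corner, inferInstance, cornerAlgebra he k, finite_corner he k,
    cut he (ModuleCat.of G G), finite_cut he, fun i hi => ?_,
    not_projective he h (ModuleCat.of G (Point χ))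
      (fun x => by
        show HMul.hMul (α := k) (β := k) (γ := k) (χ e) x = (0 : k)
        exact (congrArg (fun t : k => HMul.hMul (α := k) (β := k) (γ := k) t x) hχ).trans
          (zero_mul (M₀ := k) _))
      (inferInstanceAs (Nontrivial k))⟩
  obtain ⟨i, rfl⟩ := Nat.exists_eq_add_of_le' hi
  exact ⟨ext_self he h i, ext_regular he h i⟩

end Point

end Vale.Agent.P195.Cor
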