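import Vale.Agent.P195.Basic

/-!
Dimension shifting along a chain of short exact sequences with projective middle terms.
-/

set_option linter.unusedSectionVars false
set_option linter.style.haveILetI false

namespace Vale.Agent.P195

open CategoryTheory CategoryTheory.Abelian

universe u

variable {A : Type u} [Ring A]

/-- A short exact sequence with finitely generated projective middle term and kernel in the radical. -/
structure Step (M : ModuleCat.{u} A) : Type (u + 1) where
  P : ModuleCat.{u} A
  K : ModuleCat.{u} A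
  p : P →ₗ[A] M
  i : K →ₗ[A] P
  finP : Module.Finite A P
  projP : Module.Projective A P
  finK : Module.Finite A K
  surj : Function.Surjective p
  inj : Function.Injective i
  exact : Function.Exact i p
  small : ∀ x, i x ∈ Ring.jacobson A • (⊤ : Submodule A P)

theorem nonempty_step [IsArtinianRing A] (M : ModuleCat.{u} A) [Module.Finite A M] :
    Nonempty (Step M) := by
  obtain ⟨P, π, hP, hpr, hs, hk⟩ := exists_cover M
  exact ⟨⟨P, ModuleCat.of A (LinearMap.ker π), π, (LinearMap.ker π).subtype, hP, hpr,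
    Module.Finite.of_fg (IsNoetherian.noetherian (LinearMap.ker π)), hs,
    Submodule.subtype_injective _, LinearMap.exact_subtype_ker_map π, fun x => hk x.2⟩⟩

/-- A chain of steps, the syzygies. -/
structure Chain (A : Type u) [Ring A] : Type (u + 1) where
  M : ℕ → ModuleCat.{u} A
  P : ℕ → ModuleCat.{u} A
  π : ∀ n, P n →ₗ[A] M n
  ι : ∀ n, M (n + 1) →ₗ[A] P n
  finM : ∀ n, Module.Finite A (M n)
  finP : ∀ n, Module.Finite A (P n)
  projP : ∀ n, Module.Projective A (P n)
  surj : ∀ n, Function.Surjective (π n)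
  inj : ∀ n, Function.Injective (ι n)
  exact : ∀ n, Function.Exact (ι n) (π n)
  small : ∀ n x, ι n x ∈ Ring.jacobson A • (⊤ : Submodule A (P n))

theorem exists_chain [IsArtinianRing A] (M : ModuleCat.{u} A) [hM : Module.Finite A M] :
    ∃ C : Chain A, C.M 0 = M := by
  let stp : ∀ X : {M : ModuleCat.{u} A // Module.Finite A M}, Step X.1 := fun X =>
    haveI := X.2
    (nonempty_step X.1).some
  let F : ℕ → {M : ModuleCat.{u} A // Module.Finite A M} := fun n =>
    Nat.rec ⟨M, hM⟩ (fun _ X => ⟨(stp X).K, (stp X).finK⟩) n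
  exact ⟨{ M := fun n => (F n).1, P := fun n => (stp (F n)).P, π := fun n => (stp (F n)).p,
           ι := fun n => (stp (F n)).i, finM := fun n => (F n).2,
           finP := fun n => (stp (F n)).finP, projP := fun n => (stp (F n)).projP,
           surj := fun n => (stp (F n)).surj, inj := fun n => (stp (F n)).inj,
           exact := fun n => (stp (F n)).exact, small := fun n => (stp (F n)).small }, rfl⟩

/-- Vanishing against the regular module gives vanishing against finite projective modules. -/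
theorem ext_proj {M : ModuleCat.{u} A} {l : ℕ}
    (h : Subsingleton (Ext M (ModuleCat.of A A) l)) (Q : ModuleCat.{u} A) [Module.Finite A Q]
    [Module.Projective A Q] : Subsingleton (Ext M Q l) := by
  classical
  refine subsingleton_of_forall_eq 0 fun x => ?_
  obtain ⟨n, g, hg⟩ := Module.Finite.exists_fin' A Q
  obtain ⟨s, hs⟩ := Module.projective_lifting_property g LinearMap.id hg
  let co : Fin n → (Q ⟶ ModuleCat.of A A) := fun a =>
    ModuleCat.ofHom ((LinearMap.proj a).comp s)
  let el : Fin n → (ModuleCat.of A A ⟶ Q) := fun a =>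
    ModuleCat.ofHom (g.comp (LinearMap.single A (fun _ => A) a))
  have hid : 𝟙 Q = ∑ a, co a ≫ el a := by
    refine ModuleCat.hom_ext (LinearMap.ext fun q => ?_)
    rw [ModuleCat.hom_id, LinearMap.id_apply, ModuleCat.hom_sum, LinearMap.sum_apply]
    calc q = g (s q) := (LinearMap.congr_fun hs q).symm
      _ = g (∑ a, Pi.single a (s q a)) := by rw [Finset.univ_sum_single]
      _ = ∑ a, g (Pi.single a (s q a)) := map_sum g _ _
      _ = _ := rfl
  let Φ : (Q ⟶ Q) →+ Ext M Q l :=
    { toFun := fun f => x.comp (Ext.mk₀ f) (add_zero l)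
      map_zero' := by simp
      map_add' := fun f f' => by simp [Ext.mk₀_add, Ext.comp_add] }
  have h1 : Φ (𝟙 Q) = x := x.comp_mk₀_id
  rw [← h1, hid, map_sum]
  refine Finset.sum_eq_zero fun a _ => ?_
  show x.comp (Ext.mk₀ (co a ≫ el a)) (add_zero l) = 0
  rw [← Ext.mk₀_comp_mk₀, ← Ext.comp_assoc_of_third_deg_zero,
    h.elim (x.comp (Ext.mk₀ (co a)) (add_zero l)) 0, Ext.zero_comp]

namespace Chain

variable (C : Chain A)

/-- The n-th short complex. -/
noncomputable def S (n : ℕ) : ShortComplex (ModuleCat.{u} A) :=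
  ShortComplex.mk (ModuleCat.ofHom (C.ι n)) (ModuleCat.ofHom (C.π n)) (by
    ext x; exact LinearMap.congr_fun (C.exact n).linearMap_comp_eq_zero x)

theorem S_exact (n : ℕ) : (C.S n).ShortExact :=
  ModuleCat.shortComplex_shortExact _ (C.exact n) (C.inj n) (C.surj n)

/-- Shift in the first variable. -/
theorem shift_left (Y : ModuleCat.{u} A) (j l : ℕ)
    (h : Subsingleton (Ext (C.M j) Y (l + 2))) : Subsingleton (Ext (C.M (j + 1)) Y (l + 1)) := by
  haveI : Module.Projective A (C.S j).X₂ := C.projP j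
  haveI : CategoryTheory.Projective (C.S j).X₂ :=
    (IsProjective.iff_projective (C.S j).X₂).mp (C.projP j)
  refine subsingleton_of_forall_eq 0 fun x => ?_
  obtain ⟨y, hy⟩ := Ext.contravariant_sequence_exact₁ (C.S_exact j) Y x
    (show 1 + (l + 1) = l + 2 by omega) (h.elim _ _)
  rw [← hy, Ext.eq_zero_of_projective y, Ext.comp_zero]
  rfl

theorem shift_left_iter (Y : ModuleCat.{u} A) (j : ℕ) :
    ∀ l, Subsingleton (Ext (C.M 0) Y (l + j + 1)) → Subsingleton (Ext (C.M j) Y (l + 1)) := by
  induction j with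
  | zero => exact fun l h => h
  | succ j ih =>
    intro l h
    have e : l + (j + 1) + 1 = (l + 1) + j + 1 := by omega
    exact C.shift_left Y j l (ih (l + 1) (e ▸ h))

/-- Shift in the second variable. -/
theorem shift_right {T : ℕ} (hA : ∀ l, 1 ≤ l → l ≤ T → Subsingleton (Ext (C.M 0) (ModuleCat.of A A) l))
    (i k : ℕ) (hk : k + i + 1 ≤ T) (h : Subsingleton (Ext (C.M 0) (C.M 0) (k + 1))) :
    Subsingleton (Ext (C.M 0) (C.M i) (k + i + 1)) := by
  induction i with
  | zero => exact h
  | succ i ih =>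
    haveI : Module.Finite A (C.P i) := C.finP i
    haveI : Module.Projective A (C.P i) := C.projP i
    have hP : Subsingleton (Ext (C.M 0) (C.S i).X₂ (k + (i + 1) + 1)) :=
      ext_proj (hA _ (by omega) hk) (C.P i)
    have h3 : Subsingleton (Ext (C.M 0) (C.S i).X₃ (k + i + 1)) := ih (by omega)
    refine subsingleton_of_forall_eq (α := Ext (C.M 0) (C.S i).X₁ (k + (i + 1) + 1)) 0 fun x => ?_
    obtain ⟨y, hy⟩ := Ext.covariant_sequence_exact₁ _ (C.S_exact i) x (hP.elim _ _)
      (show (k + i + 1) + 1 = k + (i + 1) + 1 by omega)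
    rw [← hy, h3.elim y 0, Ext.zero_comp]

/-- Extension of maps. -/
theorem extend {Y : ModuleCat.{u} A} (j : ℕ) (h : Subsingleton (Ext (C.M j) Y 1))
    (f : C.M (j + 1) →ₗ[A] Y) : ∃ g : C.P j →ₗ[A] Y, g ∘ₗ C.ι j = f := by
  obtain ⟨x, hx⟩ := Ext.contravariant_sequence_exact₁ (C.S_exact j) Y
    (Ext.mk₀ (ModuleCat.ofHom f : (C.S j).X₁ ⟶ Y)) (show 1 + 0 = 1 from rfl) (h.elim _ _)
  obtain ⟨g, rfl⟩ := Ext.homEquiv₀.symm.surjective x
  refine ⟨(g : (C.S j).X₂ ⟶ Y).hom, ?_⟩
  have h2 : (C.S j).f ≫ g = ModuleCat.ofHom f := by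
    apply (Ext.mk₀_bijective _ _).1
    rw [← Ext.mk₀_comp_mk₀]
    exact hx
  exact congrArg ModuleCat.Hom.hom h2

end Chain

end Vale.Agent.P195
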